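import Mathlib

/-!
# Orthogonally invariant Ising spin glasses: definitions
-/

open MeasureTheory Filter Topology Matrix

namespace Vale.Agent.P166

/-- The spin value attached to a boolean. -/
def spin (b : Bool) : ℝ := if b then 1 else -1

/-- The pressure of the Ising model with coupling matrix `J = Uᵀ Λ U`,
uniform spin prior, diagonal terms included. -/
noncomputable def pressure (N : ℕ) (β : ℝ) (l : Fin N → ℝ) (U : Fin N → Fin N → ℝ) : ℝ :=
  (N : ℝ)⁻¹ * Real.log (((2 : ℝ) ^ N)⁻¹ * ∑ σ : Fin N → Bool,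
    Real.exp (β / 2 * ((fun j => spin (σ j)) ⬝ᵥ
      (((Matrix.of U)ᵀ * Matrix.diagonal l * Matrix.of U) *ᵥ fun j => spin (σ j)))))

/-- The eigenvalue array `Λ` satisfies the assumptions of the problem relative to `μ`: the
empirical laws tend to `μ` weakly and the extreme eigenvalues tend to the ends of the support. -/
structure Admissible (μ : Measure ℝ) (Λ : (N : ℕ) → Fin N → ℝ) : Prop where
  weak : ∀ φ : BoundedContinuousFunction ℝ ℝ,
    Tendsto (fun N : ℕ => (N : ℝ)⁻¹ * ∑ i, φ (Λ N i)) atTop (𝓝 (∫ x, φ x ∂μ))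
  top : Tendsto (fun N : ℕ => ⨆ i, Λ N i) atTop (𝓝 (sSup μ.support))
  bot : Tendsto (fun N : ℕ => ⨅ i, Λ N i) atTop (𝓝 (sInf μ.support))

/-- `ν` is a probability law carried by the orthogonal group `O(N)` and invariant under
permutations of the rows (as Haar measure is). -/
structure RowInvariantLaw (N : ℕ) (ν : Measure (Fin N → Fin N → ℝ)) : Prop where
  prob : IsProbabilityMeasure ν
  orth : ∀ᵐ U ∂ν, (Matrix.of U)ᵀ * Matrix.of U = 1
  invariant : ∀ π : Equiv.Perm (Fin N), Measure.map (fun U i => U (π i)) ν = ν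

end Vale.Agent.P166
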