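import Mathlib
import Vale.Agent.P166.Defs

/-!
# Comparing two sorted arrays with the same weak limit
-/

open MeasureTheory Filter Topology

namespace Vale.Agent.P166

/-- Piecewise linear step from `0` (left of `t`) to `1` (right of `t + h`). -/
noncomputable def ramp (t h : ℝ) : BoundedContinuousFunction ℝ ℝ :=
  BoundedContinuousFunction.ofNormedAddCommGroup (fun x => max 0 (min 1 ((x - t) / h)))
    (by fun_prop) 1 fun x => by
      rw [Real.norm_eq_abs, abs_of_nonneg (le_max_left _ _)]
      exact max_le zero_le_one (min_le_left _ _)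

lemma ramp_apply (t h x : ℝ) : ramp t h x = max 0 (min 1 ((x - t) / h)) := rfl

lemma ramp_nonneg (t h x : ℝ) : 0 ≤ ramp t h x := le_max_left _ _

lemma ramp_le_one (t h x : ℝ) : ramp t h x ≤ 1 := max_le zero_le_one (min_le_left _ _)

lemma ramp_eq_zero {t h x : ℝ} (hh : 0 < h) (hx : x ≤ t) : ramp t h x = 0 := by
  rw [ramp_apply]
  exact max_eq_left ((min_le_right _ _).trans (div_nonpos_of_nonpos_of_nonneg (by linarith) hh.le))

lemma ramp_eq_one {t h x : ℝ} (hh : 0 < h) (hx : t + h ≤ x) : ramp t h x = 1 := by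
  rw [ramp_apply, min_eq_left, max_eq_right zero_le_one]
  rw [le_div_iff₀ hh]
  linarith

/-- Number of indices at which a threshold separates two antitone vectors. -/
lemma card_separated_le {N : ℕ} {a b : Fin N → ℝ} (ha : Antitone a) (hb : Antitone b)
    {t h : ℝ} (hh : 0 < h) :
    ((Finset.univ.filter fun i => t + h ≤ a i ∧ b i ≤ t).card : ℝ)
      ≤ |∑ i, ramp t h (a i) - ∑ i, ramp t h (b i)| := by
  set A := Finset.univ.filter fun i => t + h ≤ a i with hA
  set B := Finset.univ.filter fun i => t < b i with hB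
  set S := Finset.univ.filter fun i => t + h ≤ a i ∧ b i ≤ t with hS
  rcases S.eq_empty_or_nonempty with hne | ⟨i₀, hi₀⟩
  · rw [hne]
    simp
  simp only [hS, Finset.mem_filter, Finset.mem_univ, true_and] at hi₀
  have hBA : B ⊆ A := by
    intro j hj
    simp only [hA, hB, Finset.mem_filter, Finset.mem_univ, true_and] at hj ⊢
    have hji : j ≤ i₀ := by
      by_contra hc
      have := hb (not_le.1 hc).le
      linarith [hi₀.2]
    linarith [hi₀.1, ha hji]
  have hSeq : S = A \ B := by
    ext j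
    simp [hS, hA, hB, not_lt]
  have hca : (A.card : ℝ) ≤ ∑ i, ramp t h (a i) := by
    calc (A.card : ℝ) = ∑ i ∈ A, ramp t h (a i) := by
          rw [Finset.sum_congr rfl fun i hi => ramp_eq_one hh (Finset.mem_filter.1 hi).2]
          simp [hA]
      _ ≤ _ := Finset.sum_le_sum_of_subset_of_nonneg (Finset.subset_univ _)
          fun i _ _ => ramp_nonneg t h (a i)
  have hcb : ∑ i, ramp t h (b i) ≤ (B.card : ℝ) := by
    calc ∑ i, ramp t h (b i) = ∑ i ∈ B, ramp t h (b i) := by
          symm
          refine Finset.sum_subset (Finset.subset_univ _) fun i _ hi => ramp_eq_zero hh ?_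
          simpa [hB] using hi
      _ ≤ ∑ _i ∈ B, (1 : ℝ) := Finset.sum_le_sum fun i _ => ramp_le_one t h (b i)
      _ = _ := by simp
  rw [hSeq, Finset.cast_card_sdiff hBA]
  exact le_trans (by linarith) (le_abs_self _)

/-- L¹ distance of two antitone vectors through finitely many test functions. -/
lemma sum_abs_sub_le {N : ℕ} {a b : Fin N → ℝ} (ha : Antitone a) (hb : Antitone b)
    {h C : ℝ} (hh : 0 < h) (hCa : ∀ i, |a i| ≤ C) (hCb : ∀ i, |b i| ≤ C) {K : ℕ}
    (hK : 2 * C ≤ K * h) :
    ∑ i, |a i - b i| ≤ 3 * h * N +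
      4 * C * ∑ k ∈ Finset.range (K + 1),
        |∑ i, ramp (-C + k * h) h (a i) - ∑ i, ramp (-C + k * h) h (b i)| := by
  set Φ : ℕ → ℝ := fun k =>
    |∑ i, ramp (-C + k * h) h (a i) - ∑ i, ramp (-C + k * h) h (b i)| with hΦ
  set S : ℕ → Finset (Fin N) := fun k => Finset.univ.filter fun i =>
    (-C + k * h + h ≤ a i ∧ b i ≤ -C + k * h) ∨ (-C + k * h + h ≤ b i ∧ a i ≤ -C + k * h)
    with hSdef
  have hfar : ∀ i, |a i - b i| ≤ 3 * h + 2 * C * ∑ k ∈ Finset.range (K + 1),
      (if i ∈ S k then 1 else 0 : ℝ) := by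
    intro i
    have hC0 : 0 ≤ C := (abs_nonneg _).trans (hCa i)
    rcases le_or_gt |a i - b i| (3 * h) with hs | hl
    · have : 0 ≤ ∑ k ∈ Finset.range (K + 1), (if i ∈ S k then 1 else 0 : ℝ) :=
        Finset.sum_nonneg fun k _ => by split_ifs <;> norm_num
      nlinarith
    · have bdA := abs_le.1 (hCa i)
      have bdB := abs_le.1 (hCb i)
      set lo := min (a i) (b i) with hlo
      set n := ⌈(lo + C) / h⌉₊ with hn
      have hlo0 : 0 ≤ (lo + C) / h :=
        div_nonneg (by rcases min_choice (a i) (b i) with e | e <;> rw [hlo, e] <;> linarith) hh.le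
      have hn1 : (lo + C) / h ≤ n := Nat.le_ceil _
      have hn2 : (n : ℝ) < (lo + C) / h + 1 := Nat.ceil_lt_add_one hlo0
      rw [div_le_iff₀ hh] at hn1
      have hn2' : (n : ℝ) * h < lo + C + h := by
        have := mul_lt_mul_of_pos_right hn2 hh
        rwa [add_mul, div_mul_cancel₀ _ hh.ne', one_mul] at this
      have hnK : n ∈ Finset.range (K + 1) := by
        rw [Finset.mem_range, Nat.lt_succ_iff, hn, Nat.ceil_le, div_le_iff₀ hh]
        have : lo ≤ a i := min_le_left _ _
        linarith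
      have hmem : i ∈ S n := by
        simp only [hSdef, Finset.mem_filter, Finset.mem_univ, true_and]
        rcases le_total (a i) (b i) with hab | hab
        · right
          rw [hlo, min_eq_left hab] at hn1 hn2'
          rw [abs_of_nonpos (by linarith)] at hl
          constructor <;> linarith
        · left
          rw [hlo, min_eq_right hab] at hn1 hn2'
          rw [abs_of_nonneg (by linarith)] at hl
          constructor <;> linarith
      have h1 : (1 : ℝ) ≤ ∑ k ∈ Finset.range (K + 1), (if i ∈ S k then 1 else 0 : ℝ) := by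
        refine le_trans (le_of_eq ?_) (Finset.single_le_sum
          (f := fun k => (if i ∈ S k then 1 else 0 : ℝ))
          (fun k _ => by split_ifs <;> norm_num) hnK)
        simp [hmem]
      have h2 : |a i - b i| ≤ 2 * C := by
        rw [abs_le]; constructor <;> linarith [bdA.1, bdA.2, bdB.1, bdB.2]
      nlinarith
  have hcard : ∀ k, ((S k).card : ℝ) ≤ 2 * Φ k := by
    intro k
    have h1 := card_separated_le ha hb (t := -C + k * h) hh
    have h2 := card_separated_le hb ha (t := -C + k * h) hh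
    rw [abs_sub_comm] at h2
    simp only [hSdef, Finset.filter_or]
    refine le_trans (Nat.cast_le.2 (Finset.card_union_le _ _)) ?_
    push_cast
    simp only [hΦ]
    linarith
  calc ∑ i, |a i - b i|
      ≤ ∑ i, (3 * h + 2 * C * ∑ k ∈ Finset.range (K + 1),
          (if i ∈ S k then 1 else 0 : ℝ)) := Finset.sum_le_sum fun i _ => hfar i
    _ = 3 * h * N + 2 * C * ∑ k ∈ Finset.range (K + 1), ((S k).card : ℝ) := by
        rw [Finset.sum_add_distrib,
          ← Finset.mul_sum (a := 2 * C), Finset.sum_comm]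
        simp
        ring
    _ ≤ 3 * h * N + 2 * C * ∑ k ∈ Finset.range (K + 1), 2 * Φ k := by
        rcases Nat.eq_zero_or_pos N with rfl | hN
        · simp [hΦ, Finset.eq_empty_of_isEmpty]
        have hC0 : 0 ≤ C := (abs_nonneg _).trans (hCa ⟨0, hN⟩)
        gcongr with k _
        exact hcard k
    _ = _ := by rw [← Finset.mul_sum]; ring

variable {μ : Measure ℝ} {Λ : (N : ℕ) → Fin N → ℝ}

/-- A decreasing rearrangement of a finite vector. -/
noncomputable def decr {N : ℕ} (l : Fin N → ℝ) : Equiv.Perm (Fin N) := Tuple.sort fun i => -l i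

lemma antitone_decr {N : ℕ} (l : Fin N → ℝ) : Antitone (l ∘ decr l) := by
  intro i j hij
  have := Tuple.monotone_sort (fun i => -l i) hij
  simp only [Function.comp] at this ⊢
  exact neg_le_neg_iff.1 this

lemma Admissible.sorted (hΛ : Admissible μ Λ) :
    Admissible μ (fun N => Λ N ∘ decr (Λ N)) where
  weak φ := by
    refine (hΛ.weak φ).congr fun N => ?_
    congr 1
    exact (Equiv.sum_comp (decr (Λ N)) fun i => φ (Λ N i)).symm
  top := by
    refine hΛ.top.congr fun N => ?_
    exact ((decr (Λ N)).surjective.iSup_comp (Λ N)).symm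
  bot := by
    refine hΛ.bot.congr fun N => ?_
    exact ((decr (Λ N)).surjective.iInf_comp (Λ N)).symm

lemma Admissible.bounded (hΛ : Admissible μ Λ) :
    ∃ C : ℝ, ∀ᶠ N in atTop, ∀ i, |Λ N i| ≤ C := by
  refine ⟨|sSup μ.support| + |sInf μ.support| + 1, ?_⟩
  filter_upwards [hΛ.top.eventually_lt_const (lt_add_one _),
    hΛ.bot.eventually_const_lt (sub_one_lt _)] with N h1 h2 i
  have e1 : Λ N i ≤ ⨆ i, Λ N i := le_ciSup (Set.finite_range _).bddAbove i
  have e2 : ⨅ i, Λ N i ≤ Λ N i := ciInf_le (Set.finite_range _).bddBelow i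
  rw [abs_le]
  constructor <;> linarith [le_abs_self (sSup μ.support), neg_abs_le (sInf μ.support),
    abs_nonneg (sSup μ.support), abs_nonneg (sInf μ.support)]

/-- A positive fraction of the eigenvalues sits at the upper edge. -/
lemma Admissible.top_fraction [IsProbabilityMeasure μ] (hμ : IsCompact μ.support)
    (hΛ : Admissible μ Λ) {η : ℝ} (hη : 0 < η) :
    ∃ ε > 0, ∀ᶠ N : ℕ in atTop, Antitone (Λ N) →
      ∀ i : Fin N, ((i : ℕ) : ℝ) < ε * N → |Λ N i - sSup μ.support| ≤ η := by
  set M := sSup μ.support with hM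
  have hne : μ.support.Nonempty := Measure.nonempty_support (NeZero.ne μ)
  have hMmem : M ∈ μ.support := hμ.sSup_mem hne
  set φ := ramp (M - η) (η / 2) with hφ
  have hpos : 0 < ∫ x, φ x ∂μ := by
    have hint : Integrable (fun x => φ x) μ := φ.integrable μ
    have hU : 0 < μ (Set.Ioi (M - η / 2)) :=
      (Measure.mem_support_iff_forall M).1 hMmem _ (Ioi_mem_nhds (by linarith))
    rw [integral_pos_iff_support_of_nonneg (fun x => ramp_nonneg _ _ _) hint]
    refine hU.trans_le (measure_mono fun x hx => ?_)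
    simp only [Function.mem_support]
    rw [ramp_eq_one (by linarith) (by linarith [Set.mem_Ioi.1 hx])]
    exact one_ne_zero
  refine ⟨(∫ x, φ x ∂μ) / 2, by positivity, ?_⟩
  filter_upwards [(hΛ.weak φ).eventually_const_lt (half_lt_self hpos),
    hΛ.top.eventually_lt_const (lt_add_of_pos_right M hη), eventually_gt_atTop 0]
    with N h1 h2 hN hanti i hi
  have hN' : (0 : ℝ) < N := by exact_mod_cast hN
  rw [lt_inv_mul_iff₀' hN'] at h1
  have hlow : M - η < Λ N i := by
    by_contra hc
    rw [not_lt] at hc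
    have : ∑ j, φ (Λ N j) ≤ ((i : ℕ) : ℝ) := by
      calc ∑ j, φ (Λ N j) = ∑ j ∈ Finset.Iio i, φ (Λ N j) := by
            symm
            refine Finset.sum_subset (Finset.subset_univ _) fun j _ hj => ?_
            refine ramp_eq_zero (by linarith) ?_
            exact (hanti (not_lt.1 fun h => hj (Finset.mem_Iio.2 h))).trans hc
        _ ≤ ∑ _j ∈ Finset.Iio i, (1 : ℝ) := Finset.sum_le_sum fun j _ => ramp_le_one _ _ _
        _ = _ := by simp [Fin.card_Iio]
    linarith
  have hhigh : Λ N i < M + η := lt_of_le_of_lt (le_ciSup (Set.finite_range _).bddAbove i) h2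
  rw [abs_le]
  constructor <;> linarith

/-- Two antitone admissible arrays are asymptotically equal on average. -/
lemma tendsto_average_abs_sub {Λ' : (N : ℕ) → Fin N → ℝ}
    (hΛ : Admissible μ Λ) (hΛ' : Admissible μ Λ') (ha : ∀ N, Antitone (Λ N))
    (ha' : ∀ N, Antitone (Λ' N)) :
    Tendsto (fun N : ℕ => (N : ℝ)⁻¹ * ∑ i, |Λ N i - Λ' N i|) atTop (𝓝 0) := by
  obtain ⟨C₁, hC₁⟩ := hΛ.bounded
  obtain ⟨C₂, hC₂⟩ := hΛ'.bounded
  set C := max (max C₁ C₂) 0 with hCdef
  refine Metric.tendsto_nhds.2 fun ε hε => ?_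
  set h := ε / 6 with hh
  obtain ⟨K, hK⟩ := exists_nat_ge (2 * C / h)
  rw [div_le_iff₀ (by positivity)] at hK
  have hΦ : Tendsto (fun N : ℕ => 4 * C * ∑ k ∈ Finset.range (K + 1),
      |(N : ℝ)⁻¹ * ∑ i, ramp (-C + k * h) h (Λ N i)
        - (N : ℝ)⁻¹ * ∑ i, ramp (-C + k * h) h (Λ' N i)|) atTop (𝓝 0) := by
    have := (tendsto_finsetSum (Finset.range (K + 1)) fun k _ =>
      ((hΛ.weak (ramp (-C + k * h) h)).sub (hΛ'.weak (ramp (-C + k * h) h))).abs).const_mul (4 * C)
    simpa using this
  filter_upwards [hC₁, hC₂, hΦ.eventually_lt_const (half_pos hε), eventually_gt_atTop 0]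
    with N h1 h2 h3 hN
  have hN' : (0 : ℝ) < N := by exact_mod_cast hN
  have hb := sum_abs_sub_le (ha N) (ha' N) (h := h) (C := C) (by positivity)
    (fun i => (h1 i).trans ((le_max_left _ _).trans (le_max_left _ _)))
    (fun i => (h2 i).trans ((le_max_right _ _).trans (le_max_left _ _))) hK
  rw [Real.dist_eq, sub_zero, abs_of_nonneg (mul_nonneg (by positivity)
    (Finset.sum_nonneg fun i _ => abs_nonneg _))]
  refine lt_of_le_of_lt (mul_le_mul_of_nonneg_left hb (by positivity)) ?_
  simp only [← mul_sub, abs_mul, abs_of_nonneg (inv_nonneg.2 hN'.le), ← Finset.mul_sum] at h3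
  generalize (∑ k ∈ Finset.range (K + 1), |∑ i, ramp (-C + k * h) h (Λ N i)
    - ∑ i, ramp (-C + k * h) h (Λ' N i)|) = S at h3 ⊢
  have e : (N : ℝ)⁻¹ * (3 * h * N) = 3 * h := by field_simp
  rw [mul_add, e]
  linarith

end Vale.Agent.P166
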