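import Mathlib
import Vale.Agent.P166.Defs

/-!
# The finite-N comparison estimate
-/

open MeasureTheory Filter Topology Matrix

namespace Vale.Agent.P166

variable {N : ℕ}

/-- Squared projection of the spin vector on the `i`th row. -/
def proj (U : Fin N → Fin N → ℝ) (i : Fin N) (σ : Fin N → Bool) : ℝ :=
  (∑ j, U i j * spin (σ j)) ^ 2

noncomputable def boltz (β : ℝ) (l : Fin N → ℝ) (U : Fin N → Fin N → ℝ)
    (σ : Fin N → Bool) : ℝ :=
  Real.exp (β / 2 * ∑ i, l i * proj U i σ)

noncomputable def part (β : ℝ) (l : Fin N → ℝ) (U : Fin N → Fin N → ℝ) : ℝ :=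
  ∑ σ, boltz β l U σ

noncomputable def weight (β : ℝ) (l : Fin N → ℝ) (i : Fin N) (U : Fin N → Fin N → ℝ) : ℝ :=
  β / (2 * N) * ((∑ σ, boltz β l U σ * proj U i σ) / part β l U)

lemma pressure_eq (β : ℝ) (l : Fin N → ℝ) (U : Fin N → Fin N → ℝ) :
    pressure N β l U = (N : ℝ)⁻¹ * Real.log (((2 : ℝ) ^ N)⁻¹ * part β l U) := by
  unfold pressure part boltz proj
  congr 2
  congr 1
  refine Finset.sum_congr rfl fun σ _ => ?_
  congr 2
  rw [← Matrix.mulVec_mulVec, ← Matrix.mulVec_mulVec, Matrix.dotProduct_mulVec,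
    Matrix.vecMul_transpose]
  simp only [dotProduct]
  refine Finset.sum_congr rfl fun i _ => ?_
  rw [Matrix.mulVec_diagonal]
  simp only [Matrix.mulVec, dotProduct, Matrix.of_apply]
  ring

lemma part_pos (β : ℝ) (l : Fin N → ℝ) (U : Fin N → Fin N → ℝ) : 0 < part β l U :=
  Finset.sum_pos (fun _ _ => Real.exp_pos _) Finset.univ_nonempty

lemma continuous_pressure (β : ℝ) (l : Fin N → ℝ) : Continuous (pressure N β l) := by
  have h : pressure N β l = fun U => (N : ℝ)⁻¹ * Real.log (((2 : ℝ) ^ N)⁻¹ * part β l U) :=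
    funext (pressure_eq β l)
  rw [h]
  refine continuous_const.mul (Continuous.log ?_ fun U => ?_)
  · unfold part boltz proj
    fun_prop
  · have := part_pos β l U
    positivity

lemma continuous_weight (β : ℝ) (l : Fin N → ℝ) (i : Fin N) :
    Continuous (weight β l i) := by
  unfold weight
  refine continuous_const.mul (Continuous.div ?_ ?_ fun U => (part_pos β l U).ne')
  · unfold boltz proj
    fun_prop
  · unfold part boltz proj
    fun_prop

lemma weight_nonneg {β : ℝ} (hβ : 0 ≤ β) (l : Fin N → ℝ) (i : Fin N)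
    (U : Fin N → Fin N → ℝ) : 0 ≤ weight β l i U := by
  unfold weight
  refine mul_nonneg (by positivity) (div_nonneg ?_ (part_pos β l U).le)
  refine Finset.sum_nonneg fun σ _ => mul_nonneg (Real.exp_pos _).le ?_
  exact sq_nonneg _

lemma sum_proj {U : Fin N → Fin N → ℝ} (hU : (Matrix.of U)ᵀ * Matrix.of U = 1)
    (σ : Fin N → Bool) : ∑ i, proj U i σ = N := by
  have hp : ∀ i, proj U i σ =
      ∑ j, ∑ k, U i j * U i k * (spin (σ j) * spin (σ k)) := by
    intro i
    rw [proj, sq, Finset.sum_mul_sum]
    exact Finset.sum_congr rfl fun j _ => Finset.sum_congr rfl fun k _ => by ring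
  simp only [hp]
  rw [Finset.sum_comm]
  have h1 : ∀ j k : Fin N, ∑ i, U i j * U i k = if j = k then 1 else 0 := by
    intro j k
    have := congrFun (congrFun hU j) k
    simpa [Matrix.mul_apply, Matrix.one_apply] using this
  have h2 : ∀ j : Fin N, ∑ i, ∑ k, U i j * U i k * (spin (σ j) * spin (σ k)) = 1 := by
    intro j
    rw [Finset.sum_comm]
    simp only [← Finset.sum_mul, h1]
    rw [Finset.sum_eq_single j (fun k _ hk => by simp [Ne.symm hk]) (by simp)]
    cases σ j <;> simp [spin]
  rw [Finset.sum_congr rfl fun j _ => h2 j]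
  simp

lemma sum_weight (β : ℝ) (l : Fin N → ℝ) {U : Fin N → Fin N → ℝ}
    (hU : (Matrix.of U)ᵀ * Matrix.of U = 1) (hN : 0 < N) :
    ∑ i, weight β l i U = β / 2 := by
  unfold weight
  rw [← Finset.mul_sum, ← Finset.sum_div, Finset.sum_comm]
  simp only [← Finset.mul_sum, sum_proj hU, ← Finset.sum_mul]
  rw [show (∑ σ, boltz β l U σ) = part β l U from rfl]
  have := part_pos β l U
  have : (N : ℝ) ≠ 0 := by exact_mod_cast hN.ne'
  field_simp

/-- Tangent (Gibbs) inequality. -/
lemma tangent (β : ℝ) (l l' : Fin N → ℝ) (U : Fin N → Fin N → ℝ) :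
    pressure N β l U + ∑ i, (l' i - l i) * weight β l i U ≤ pressure N β l' U := by
  have hZ := part_pos β l U
  have hZ' := part_pos β l' U
  set D : (Fin N → Bool) → ℝ := fun σ => β / 2 * ∑ i, (l' i - l i) * proj U i σ with hD
  set m : ℝ := (∑ σ, boltz β l U σ * D σ) / part β l U with hm
  have hb : ∀ σ, boltz β l' U σ = Real.exp m * (boltz β l U σ * Real.exp (D σ - m)) := by
    intro σ
    unfold boltz
    rw [← Real.exp_add, ← Real.exp_add]
    congr 1
    simp only [hD, sub_mul, Finset.sum_sub_distrib]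
    ring
  have hge : Real.exp m * part β l U ≤ part β l' U := by
    calc Real.exp m * part β l U
        = Real.exp m * ∑ σ, boltz β l U σ * (D σ - m + 1) := by
          congr 1
          simp only [mul_add, mul_sub, mul_one, Finset.sum_add_distrib, Finset.sum_sub_distrib,
            ← Finset.sum_mul]
          rw [show (∑ σ, boltz β l U σ * D σ) = m * part β l U by
            rw [hm, div_mul_cancel₀ _ hZ.ne']]
          unfold part
          ring
      _ ≤ Real.exp m * ∑ σ, boltz β l U σ * Real.exp (D σ - m) := by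
          refine mul_le_mul_of_nonneg_left (Finset.sum_le_sum fun σ _ => ?_) (Real.exp_pos _).le
          exact mul_le_mul_of_nonneg_left (Real.add_one_le_exp _) (Real.exp_pos _).le
      _ = part β l' U := by
          rw [Finset.mul_sum]
          exact Finset.sum_congr rfl fun σ _ => (hb σ).symm
  have hlog : m + Real.log (part β l U) ≤ Real.log (part β l' U) := by
    have := Real.log_le_log (by positivity) hge
    rwa [Real.log_mul (Real.exp_pos m).ne' hZ.ne', Real.log_exp] at this
  have hw : ∑ i, (l' i - l i) * weight β l i U = (N : ℝ)⁻¹ * m := by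
    have : ∑ σ, boltz β l U σ * D σ
        = β / 2 * ∑ i, (l' i - l i) * ∑ σ, boltz β l U σ * proj U i σ := by
      simp only [hD, Finset.mul_sum]
      rw [Finset.sum_comm]
      exact Finset.sum_congr rfl fun i _ => Finset.sum_congr rfl fun σ _ => by ring
    rw [hm, this, Finset.mul_sum, Finset.sum_div, Finset.mul_sum]
    refine Finset.sum_congr rfl fun i _ => ?_
    unfold weight
    rw [div_eq_mul_inv β (2 * (N : ℝ)), mul_inv]
    field_simp
  rw [pressure_eq, pressure_eq, hw, Real.log_mul (by positivity) hZ.ne',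
    Real.log_mul (by positivity) hZ'.ne']
  have hN0 : 0 ≤ (N : ℝ)⁻¹ := by positivity
  nlinarith [mul_le_mul_of_nonneg_left hlog hN0]

lemma abs_pressure_sub_le {β : ℝ} (hβ : 0 ≤ β) (l l' : Fin N → ℝ) (U : Fin N → Fin N → ℝ) :
    |pressure N β l U - pressure N β l' U|
      ≤ ∑ i, |l i - l' i| * (weight β l i U + weight β l' i U) := by
  have h1 := tangent β l l' U
  have h2 := tangent β l' l U
  have hb : ∀ (a : Fin N → ℝ), (∀ i, 0 ≤ a i) →
      |∑ i, (l i - l' i) * a i| ≤ ∑ i, |l i - l' i| * a i := fun a ha =>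
    (Finset.abs_sum_le_sum_abs _ _).trans_eq
      (Finset.sum_congr rfl fun i _ => by rw [abs_mul, abs_of_nonneg (ha i)])
  have e1 := abs_le.1 (hb (fun i => weight β l i U) fun i => weight_nonneg hβ l i U)
  have e2 := abs_le.1 (hb (fun i => weight β l' i U) fun i => weight_nonneg hβ l' i U)
  have n1 : 0 ≤ ∑ i, |l i - l' i| * weight β l i U :=
    Finset.sum_nonneg fun i _ => mul_nonneg (abs_nonneg _) (weight_nonneg hβ l i U)
  have n2 : 0 ≤ ∑ i, |l i - l' i| * weight β l' i U :=
    Finset.sum_nonneg fun i _ => mul_nonneg (abs_nonneg _) (weight_nonneg hβ l' i U)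
  have hneg : ∑ i, (l' i - l i) * weight β l i U = - ∑ i, (l i - l' i) * weight β l i U := by
    rw [← Finset.sum_neg_distrib]
    exact Finset.sum_congr rfl fun i _ => by ring
  simp only [mul_add, Finset.sum_add_distrib]
  rw [abs_le]
  constructor <;> linarith [e1.1, e1.2, e2.1, e2.2]

lemma proj_perm (U : Fin N → Fin N → ℝ) (π : Equiv.Perm (Fin N)) (i : Fin N)
    (σ : Fin N → Bool) : proj (fun a => U (π a)) i σ = proj U (π i) σ := rfl

lemma boltz_perm (β : ℝ) (l : Fin N → ℝ) (U : Fin N → Fin N → ℝ) (π : Equiv.Perm (Fin N))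
    (σ : Fin N → Bool) :
    boltz β (l ∘ π) (fun a => U (π a)) σ = boltz β l U σ := by
  unfold boltz
  congr 2
  exact Equiv.sum_comp π (fun i => l i * proj U i σ)

lemma part_perm (β : ℝ) (l : Fin N → ℝ) (U : Fin N → Fin N → ℝ) (π : Equiv.Perm (Fin N)) :
    part β (l ∘ π) (fun a => U (π a)) = part β l U :=
  Finset.sum_congr rfl fun σ _ => boltz_perm β l U π σ

lemma pressure_perm (β : ℝ) (l : Fin N → ℝ) (U : Fin N → Fin N → ℝ) (π : Equiv.Perm (Fin N)) :
    pressure N β (l ∘ π) (fun a => U (π a)) = pressure N β l U := by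
  rw [pressure_eq, pressure_eq, part_perm]

lemma weight_perm (β : ℝ) (l : Fin N → ℝ) (U : Fin N → Fin N → ℝ) (π : Equiv.Perm (Fin N))
    (i : Fin N) : weight β (l ∘ π) i (fun a => U (π a)) = weight β l (π i) U := by
  unfold weight
  simp only [part_perm, boltz_perm, proj_perm]

section Law

variable {ν : Measure (Fin N → Fin N → ℝ)}

lemma measurable_rowPerm (π : Equiv.Perm (Fin N)) :
    Measurable fun (U : Fin N → Fin N → ℝ) i => U (π i) :=
  measurable_pi_lambda _ fun i => measurable_pi_apply (π i)

lemma integral_rowPerm (hν : RowInvariantLaw N ν) (π : Equiv.Perm (Fin N))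
    {f : (Fin N → Fin N → ℝ) → ℝ} (hf : Continuous f) :
    ∫ U, f (fun i => U (π i)) ∂ν = ∫ U, f U ∂ν := by
  have := integral_map (μ := ν) (measurable_rowPerm π).aemeasurable
    (hf.aestronglyMeasurable (μ := Measure.map (fun U i => U (π i)) ν))
  rw [hν.invariant π] at this
  exact this.symm

lemma integrable_weight (hν : RowInvariantLaw N ν) {β : ℝ} (hβ : 0 ≤ β) (l : Fin N → ℝ)
    (i : Fin N) : Integrable (weight β l i) ν := by
  have := hν.prob
  refine Integrable.of_bound (continuous_weight β l i).aestronglyMeasurable (β / 2) ?_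
  filter_upwards [hν.orth] with U hU
  rw [Real.norm_of_nonneg (weight_nonneg hβ l i U), ← sum_weight β l hU i.pos]
  exact Finset.single_le_sum (fun j _ => weight_nonneg hβ l j U) (Finset.mem_univ i)

/-- Mean Gibbs weight of an eigenvalue. -/
noncomputable def meanWeight (β : ℝ) (ν : Measure (Fin N → Fin N → ℝ)) (l : Fin N → ℝ)
    (i : Fin N) : ℝ :=
  ∫ U, weight β l i U ∂ν

lemma meanWeight_nonneg {β : ℝ} (hβ : 0 ≤ β) (l : Fin N → ℝ) (i : Fin N) :
    0 ≤ meanWeight β ν l i :=
  integral_nonneg fun U => weight_nonneg hβ l i U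

lemma sum_meanWeight (hν : RowInvariantLaw N ν) {β : ℝ} (hβ : 0 ≤ β) (hN : 0 < N)
    (l : Fin N → ℝ) : ∑ i, meanWeight β ν l i = β / 2 := by
  have := hν.prob
  unfold meanWeight
  rw [← integral_finsetSum _ fun i _ => integrable_weight hν hβ l i]
  rw [integral_congr_ae (g := fun _ => β / 2)
    (by filter_upwards [hν.orth] with U hU using sum_weight β l hU hN)]
  simp

lemma meanWeight_perm (hν : RowInvariantLaw N ν) (β : ℝ) (l : Fin N → ℝ)
    (π : Equiv.Perm (Fin N)) (i : Fin N) :
    meanWeight β ν (l ∘ π) i = meanWeight β ν l (π i) := by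
  unfold meanWeight
  rw [← integral_rowPerm hν π (continuous_weight β (l ∘ π) i)]
  simp only [weight_perm]

/-- A larger eigenvalue carries at least as much mean Gibbs weight. -/
lemma meanWeight_mono (hν : RowInvariantLaw N ν) {β : ℝ} (hβ : 0 ≤ β)
    (hint : ∀ l : Fin N → ℝ, Integrable (pressure N β l) ν) (l : Fin N → ℝ) {i j : Fin N}
    (h : l j ≤ l i) : meanWeight β ν l j ≤ meanWeight β ν l i := by
  set π := Equiv.swap i j with hπ
  rcases h.lt_or_eq with hlt | heq
  · have hP : ∫ U, pressure N β (l ∘ π) U ∂ν = ∫ U, pressure N β l U ∂ν := by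
      rw [← integral_rowPerm hν π (continuous_pressure β (l ∘ π))]
      simp only [pressure_perm]
    have hI : Integrable (fun U => ∑ k, ((l ∘ π) k - l k) * weight β l k U) ν :=
      integrable_finsetSum _ fun k _ => (integrable_weight hν hβ l k).const_mul _
    have key := integral_mono ((hint l).add hI) (hint (l ∘ π)) fun U => tangent β l (l ∘ π) U
    simp only [Pi.add_apply] at key
    rw [integral_add (hint l) hI, hP,
      integral_finsetSum _ fun k _ => (integrable_weight hν hβ l k).const_mul _] at key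
    simp only [integral_const_mul] at key
    have hij : i ≠ j := by rintro rfl; exact lt_irrefl _ hlt
    have hs : ∑ k, ((l ∘ π) k - l k) * ∫ U, weight β l k U ∂ν
        = (l j - l i) * meanWeight β ν l i + (l i - l j) * meanWeight β ν l j := by
      rw [← Finset.sum_subset (Finset.subset_univ ({i, j} : Finset (Fin N)))
        (fun k _ hk => by
          simp only [Finset.mem_insert, Finset.mem_singleton, not_or] at hk
          simp [hπ, Equiv.swap_apply_of_ne_of_ne hk.1 hk.2])]
      rw [Finset.sum_pair hij]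
      simp [hπ, meanWeight]
    rw [hs] at key
    nlinarith
  · have hl : l ∘ π = l := by
      funext k
      simp only [hπ, Function.comp, Equiv.swap_apply_def]
      split_ifs <;> simp_all
    have := meanWeight_perm hν β l π i
    rw [hl, hπ, Equiv.swap_apply_left] at this
    rw [this]

lemma integrable_pressure (hν : RowInvariantLaw N ν) {β : ℝ} (hβ : 0 ≤ β) (l : Fin N → ℝ) :
    Integrable (pressure N β l) ν := by
  have := hν.prob
  refine Integrable.of_bound (continuous_pressure β l).aestronglyMeasurable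
    (∑ i, |l i - (0 : Fin N → ℝ) i| * β) ?_
  filter_upwards [hν.orth] with U hU
  have h0 : pressure N β 0 U = 0 := by
    rw [pressure_eq]
    simp [part, boltz]
  have h1 := abs_pressure_sub_le hβ l 0 U
  rw [h0, sub_zero] at h1
  rw [Real.norm_eq_abs]
  refine h1.trans (Finset.sum_le_sum fun i _ => mul_le_mul_of_nonneg_left ?_ (abs_nonneg _))
  have e1 := Finset.single_le_sum (fun j _ => weight_nonneg hβ l j U) (Finset.mem_univ i)
  have e2 := Finset.single_le_sum (fun j _ => weight_nonneg hβ (0 : Fin N → ℝ) j U)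
    (Finset.mem_univ i)
  rw [sum_weight β _ hU i.pos] at e1 e2
  linarith

lemma meanWeight_le (hν : RowInvariantLaw N ν) {β : ℝ} (hβ : 0 ≤ β) {l : Fin N → ℝ}
    (hl : Antitone l) (i : Fin N) :
    ((i : ℕ) + 1 : ℝ) * meanWeight β ν l i ≤ β / 2 := by
  calc ((i : ℕ) + 1 : ℝ) * meanWeight β ν l i
      = ∑ _j ∈ Finset.Iic i, meanWeight β ν l i := by simp [Fin.card_Iic]
    _ ≤ ∑ j ∈ Finset.Iic i, meanWeight β ν l j :=
        Finset.sum_le_sum fun j hj =>
          meanWeight_mono hν hβ (integrable_pressure hν hβ) l (hl (Finset.mem_Iic.1 hj))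
    _ ≤ ∑ j, meanWeight β ν l j :=
        Finset.sum_le_sum_of_subset_of_nonneg (Finset.subset_univ _)
          fun j _ _ => meanWeight_nonneg hβ l j
    _ = β / 2 := sum_meanWeight hν hβ i.pos l

/-- The finite-N comparison estimate for antitone eigenvalue vectors. -/
lemma integral_abs_sub_le (hν : RowInvariantLaw N ν) {β : ℝ} (hβ : 0 ≤ β) (hN : 0 < N)
    {l l' : Fin N → ℝ} (hl : Antitone l) (hl' : Antitone l') {k η : ℝ} (hk : 0 < k)
    (hη : 0 ≤ η) (htop : ∀ i : Fin N, ((i : ℕ) : ℝ) < k → |l i - l' i| ≤ η) :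
    ∫ U, |pressure N β l U - pressure N β l' U| ∂ν
      ≤ β * η + β / k * ∑ i, |l i - l' i| := by
  have hI : ∀ i : Fin N, Integrable
      (fun U => |l i - l' i| * (weight β l i U + weight β l' i U)) ν := fun i =>
    ((integrable_weight hν hβ l i).add (integrable_weight hν hβ l' i)).const_mul _
  calc ∫ U, |pressure N β l U - pressure N β l' U| ∂ν
      ≤ ∫ U, ∑ i, |l i - l' i| * (weight β l i U + weight β l' i U) ∂ν :=
        integral_mono ((integrable_pressure hν hβ l).sub (integrable_pressure hν hβ l')).abs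
          (integrable_finsetSum _ fun i _ => hI i) fun U => abs_pressure_sub_le hβ l l' U
    _ = ∑ i, |l i - l' i| * (meanWeight β ν l i + meanWeight β ν l' i) := by
        rw [integral_finsetSum _ fun i _ => hI i]
        refine Finset.sum_congr rfl fun i _ => ?_
        rw [integral_const_mul, integral_add (integrable_weight hν hβ l i)
          (integrable_weight hν hβ l' i)]
        rfl
    _ ≤ ∑ i, (η * (meanWeight β ν l i + meanWeight β ν l' i) + β / k * |l i - l' i|) := by
        refine Finset.sum_le_sum fun i _ => ?_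
        have g1 := meanWeight_nonneg (ν := ν) hβ l i
        have g2 := meanWeight_nonneg (ν := ν) hβ l' i
        rcases lt_or_ge ((i : ℕ) : ℝ) k with hik | hik
        · have e := mul_le_mul_of_nonneg_right (htop i hik) (add_nonneg g1 g2)
          have : 0 ≤ β / k * |l i - l' i| := by positivity
          linarith
        · have b1 := meanWeight_le hν hβ hl i
          have b2 := meanWeight_le hν hβ hl' i
          have hb : meanWeight β ν l i + meanWeight β ν l' i ≤ β / k := by
            rw [le_div_iff₀ hk]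
            nlinarith
          have e := mul_le_mul_of_nonneg_left hb (abs_nonneg (l i - l' i))
          have : 0 ≤ η * (meanWeight β ν l i + meanWeight β ν l' i) :=
            mul_nonneg hη (add_nonneg g1 g2)
          linarith
    _ = β * η + β / k * ∑ i, |l i - l' i| := by
        rw [Finset.sum_add_distrib, ← Finset.mul_sum, ← Finset.mul_sum, Finset.sum_add_distrib,
          sum_meanWeight hν hβ hN, sum_meanWeight hν hβ hN]
        ring

end Law

end Vale.Agent.P166
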