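import Mathlib
import Vale.Agent.P166.Defs
import Vale.Agent.P166.Finite
import Vale.Agent.P166.Analysis

/-!
# P166: the limiting pressure depends only on `(β, μ)`
-/

open MeasureTheory Filter Topology

namespace Vale.Agent.P166.Universality

open Vale.Agent.P166

variable {μ : Measure ℝ} {ν : (N : ℕ) → Measure (Fin N → Fin N → ℝ)}

lemma coupled_l1 [IsProbabilityMeasure μ] (hμ : IsCompact μ.support) {β : ℝ} (hβ : 0 < β)
    {Λ Λ' : (N : ℕ) → Fin N → ℝ} (hΛ : Admissible μ Λ) (hΛ' : Admissible μ Λ')
    (ha : ∀ N, Antitone (Λ N)) (ha' : ∀ N, Antitone (Λ' N))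
    (hν : ∀ N, RowInvariantLaw N (ν N)) :
    Tendsto (fun N => ∫ U, |pressure N β (Λ N) U - pressure N β (Λ' N) U| ∂ν N) atTop
      (𝓝 0) := by
  refine Metric.tendsto_nhds.2 fun e he => ?_
  set η := e / (4 * β) with hη
  have hη0 : 0 < η := by positivity
  obtain ⟨ε₁, hε₁, h₁⟩ := hΛ.top_fraction hμ hη0
  obtain ⟨ε₂, hε₂, h₂⟩ := hΛ'.top_fraction hμ hη0
  set ε := min ε₁ ε₂ with hε
  have hεp : 0 < ε := lt_min hε₁ hε₂
  have hav := (tendsto_average_abs_sub hΛ hΛ' ha ha').const_mul (β / ε)
  rw [mul_zero] at hav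
  filter_upwards [h₁, h₂, hav.eventually_lt_const (show (0 : ℝ) < e / 4 by positivity),
    eventually_gt_atTop 0] with N e₁ e₂ e₃ hN
  have hN' : (0 : ℝ) < N := by exact_mod_cast hN
  have hb := integral_abs_sub_le (hν N) hβ.le hN (ha N) (ha' N) (k := ε * N) (η := 2 * η)
    (by positivity) (by positivity) fun i hi => by
      have a₁ := e₁ (ha N) i (hi.trans_le (by gcongr; exact min_le_left _ _))
      have a₂ := e₂ (ha' N) i (hi.trans_le (by gcongr; exact min_le_right _ _))
      have := abs_sub_le (Λ N i) (sSup μ.support) (Λ' N i)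
      rw [abs_sub_comm (sSup μ.support)] at this
      linarith
  rw [Real.dist_eq, sub_zero, abs_of_nonneg (integral_nonneg fun U => abs_nonneg _)]
  refine lt_of_le_of_lt hb ?_
  have k1 : β * (2 * η) = e / 2 := by rw [hη]; field_simp; ring
  have k2 : β / (ε * N) * ∑ i, |Λ N i - Λ' N i|
      = β / ε * ((N : ℝ)⁻¹ * ∑ i, |Λ N i - Λ' N i|) := by field_simp
  rw [k1, k2]
  linarith

lemma pressure_sorted {N : ℕ} (β : ℝ) (l : Fin N → ℝ) (U : Fin N → Fin N → ℝ) :
    pressure N β (l ∘ decr l) (fun i => U (decr l i)) = pressure N β l U :=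
  pressure_perm β l U (decr l)

lemma integral_sorted {N : ℕ} {m : Measure (Fin N → Fin N → ℝ)} (hm : RowInvariantLaw N m)
    (β : ℝ) (l : Fin N → ℝ) :
    ∫ U, pressure N β (l ∘ decr l) U ∂m = ∫ U, pressure N β l U ∂m := by
  rw [← integral_rowPerm hm (decr l) (continuous_pressure β (l ∘ decr l))]
  simp only [pressure_sorted]

lemma deviation_sorted {N : ℕ} {m : Measure (Fin N → Fin N → ℝ)} (hm : RowInvariantLaw N m)
    (β : ℝ) (l : Fin N → ℝ) (L δ : ℝ) :
    m {U | δ < |pressure N β (l ∘ decr l) U - L|} = m {U | δ < |pressure N β l U - L|} := by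
  have hs : MeasurableSet {U | δ < |pressure N β (l ∘ decr l) U - L|} :=
    (isOpen_lt continuous_const ((continuous_pressure β _).sub continuous_const).abs).measurableSet
  have := Measure.map_apply (μ := m) (measurable_rowPerm (decr l)) hs
  rw [hm.invariant] at this
  rw [this]
  simp only [Set.preimage_ofPred_eq, pressure_sorted]

/-- **Universality of the limiting pressure.** For two eigenvalue arrays admissible for the same
`μ` the mean pressures differ by `o(1)`, and if the pressure of one of them converges in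
probability to `L`, so does the pressure of the other. -/
theorem result (μ : Measure ℝ) [IsProbabilityMeasure μ] (hμ : IsCompact μ.support)
    (β : ℝ) (hβ : 0 < β) (Λ Λ' : (N : ℕ) → Fin N → ℝ)
    (hΛ : Admissible μ Λ) (hΛ' : Admissible μ Λ')
    (ν : (N : ℕ) → Measure (Fin N → Fin N → ℝ)) (hν : ∀ N, RowInvariantLaw N (ν N)) :
    Tendsto (fun N => (∫ U, pressure N β (Λ N) U ∂ν N) - ∫ U, pressure N β (Λ' N) U ∂ν N)
        atTop (𝓝 0) ∧
      ∀ L : ℝ,
        (∀ δ > 0, Tendsto (fun N => ν N {U | δ < |pressure N β (Λ N) U - L|}) atTop (𝓝 0)) →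
        ∀ δ > 0, Tendsto (fun N => ν N {U | δ < |pressure N β (Λ' N) U - L|}) atTop (𝓝 0) := by
  set a := fun N => Λ N ∘ decr (Λ N) with ha
  set b := fun N => Λ' N ∘ decr (Λ' N) with hb
  have hl1 : Tendsto (fun N => ∫ U, |pressure N β (a N) U - pressure N β (b N) U| ∂ν N) atTop
      (𝓝 0) :=
    coupled_l1 hμ hβ hΛ.sorted hΛ'.sorted (fun N => antitone_decr _) (fun N => antitone_decr _) hν
  constructor
  · refine squeeze_zero_norm (fun N => ?_) hl1
    rw [← integral_sorted (hν N) β (Λ N), ← integral_sorted (hν N) β (Λ' N),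
      ← integral_sub (integrable_pressure (hν N) hβ.le _) (integrable_pressure (hν N) hβ.le _)]
    exact norm_integral_le_integral_norm _
  · intro L hL δ hδ
    have hA := hL (δ / 2) (half_pos hδ)
    have hB : Tendsto (fun N => ENNReal.ofReal ((δ / 2)⁻¹ *
        ∫ U, |pressure N β (a N) U - pressure N β (b N) U| ∂ν N)) atTop (𝓝 0) := by
      have := (ENNReal.continuous_ofReal.tendsto _).comp (hl1.const_mul ((δ / 2)⁻¹))
      simpa [Function.comp_def] using this
    have hsum := hA.add hB
    rw [add_zero] at hsum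
    refine tendsto_of_tendsto_of_tendsto_of_le_of_le tendsto_const_nhds hsum (fun _ => zero_le)
      fun N => ?_
    have := (hν N).prob
    rw [← deviation_sorted (hν N) β (Λ' N), ← deviation_sorted (hν N) β (Λ N)]
    refine le_trans (le_trans (measure_mono (t := {U | δ / 2 < |pressure N β (a N) U - L|} ∪
      {U | δ / 2 ≤ |pressure N β (a N) U - pressure N β (b N) U|}) ?_) (measure_union_le _ _))
      (add_le_add le_rfl ?_)
    · intro U hU
      simp only [Set.mem_ofPred_eq, Set.mem_union] at hU ⊢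
      by_contra hc
      push Not at hc
      have := abs_sub_le (pressure N β (b N) U) (pressure N β (a N) U) L
      rw [abs_sub_comm (pressure N β (b N) U) (pressure N β (a N) U)] at this
      simp only [ha, hb] at *
      linarith
    · rw [← ofReal_measureReal (measure_ne_top _ _)]
      refine ENNReal.ofReal_le_ofReal ?_
      rw [le_inv_mul_iff₀ (half_pos hδ)]
      exact mul_meas_ge_le_integral_of_nonneg (Eventually.of_forall fun U => abs_nonneg _)
        ((integrable_pressure (hν N) hβ.le _).sub (integrable_pressure (hν N) hβ.le _)).abs _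

end Vale.Agent.P166.Universality
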